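import Vale.Agent.P095.H681.Triv

/-! The local form of the absence of characters for every action of a countable group `G` with an
amenable quotient `G / N`, `N` acting by inner or centrally trivial automorphisms. -/

set_option linter.all false

open Filter Topology
open scoped MultiplierAlgebra TensorProduct

namespace Vale.Agent.P095H

universe u w x

open Vale.Agent.P101 Vale.Agent.P095K Vale.Agent.P095R Vale.Agent.P095
  Vale.Agent.P095J Vale.Agent.P095N Vale.Agent.P133 Vale.Agent.P095M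

/-- Version with a surjective homomorphism onto an amenable group. -/
theorem noCharLocalN_of_surj {A : Type u} [NonUnitalCStarAlgebra A]
    [TopologicalSpace.SeparableSpace A] (hne : ∃ a : A, a ≠ 0)
    (hS : SimpleI (inrIdeal A)) (hN : IsNuclearN A) (hNC : NoCharLocI (inrIdeal A))
    {G : Type w} [Group G] [Countable G] {Q : Type x} [Group Q] (π : G →* Q)
    (hπ : Function.Surjective π) (hQ : IsAmenable Q) (α : G →* (A ≃⋆ₐ[ℂ] A))
    (hker : ∀ n, π n = 1 → IsCentrallyTrivial (α n)) :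
    NoCharLocalN α := by
  let _ : PartialOrder (Unitization ℂ A) := CStarAlgebra.spectralOrder _
  have _ : StarOrderedRing (Unitization ℂ A) := CStarAlgebra.spectralOrderedRing _
  obtain ⟨a, ha⟩ := hne
  have h : LocalNoCharR (inrIdeal A) (unitAct α) :=
    localNoCharR_ofW hS ⟨a, inr_mem a, fun h => ha (Unitization.inr_injective (R := ℂ) h)⟩
      sepI_inrIdeal (isNuclear_unitization hN) hNC (invI_unitAct α) π hπ hQ
      (fun n hn => centTrivI_unitAut (hker n hn))
  exact noCharLocalN_of_wst α (wstLocalN_of_localNoCharR (invI_unitAct α)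
    (unitMult A) (fun a => (Unitization.inr a : Unitization ℂ A)) (fun a => inr_mem a)
    (fun a => unitMult_inr a) (fun g x => unitMult_act α g x) h)

/-- Version with a normal subgroup. -/
theorem noCharLocalN_of_normal {A : Type u} [NonUnitalCStarAlgebra A]
    [TopologicalSpace.SeparableSpace A] (hne : ∃ a : A, a ≠ 0)
    (hS : SimpleI (inrIdeal A)) (hN : IsNuclearN A) (hNC : NoCharLocI (inrIdeal A))
    {G : Type w} [Group G] [Countable G] (N : Subgroup G) [N.Normal] (hQ : IsAmenable (G ⧸ N))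
    (α : G →* (A ≃⋆ₐ[ℂ] A)) (hα : ∀ n ∈ N, IsInner (α n) ∨ IsCentrallyTrivial (α n)) :
    NoCharLocalN α :=
  noCharLocalN_of_surj hne hS hN hNC (QuotientGroup.mk' N) (QuotientGroup.mk'_surjective N) hQ α
    fun n hn => by
      have hn' : n ∈ N := by
        rwa [QuotientGroup.mk'_apply, QuotientGroup.eq_one_iff] at hn
      rcases hα n hn' with h | h
      · exact h.isCentrallyTrivial
      · exact h

/-- The local form for the algebras of the question. -/
theorem noCharLocalN_main {A Z B : Type u} [NonUnitalCStarAlgebra A] [CStarAlgebra Z]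
    [NonUnitalCStarAlgebra B] [TopologicalSpace.SeparableSpace A] (hS : IsSimpleAlg A)
    (hA : IsNuclearAlg A) (hZ : IsJiangSuAlgebra Z) (hZ' : IsStronglySelfAbsorbing Z)
    (T : A →ₗ[ℂ] Z →ₗ[ℂ] B) (hB : IsTensorProd T) (hAB : Nonempty (A ≃⋆ₐ[ℂ] B))
    {G : Type w} [Group G] [Countable G] (N : Subgroup G) [N.Normal] (hQ : IsAmenable (G ⧸ N))
    (α : G →* (A ≃⋆ₐ[ℂ] A)) (hα : ∀ n ∈ N, IsInner (α n) ∨ IsCentrallyTrivial (α n)) :
    NoCharLocalN α :=
  noCharLocalN_of_normal hS.nonzero (simpleI_inr (isSimpleN_of_alg hS)) hA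
    (noCharLocI_of_zstable hZ hZ' T hB.isTensorCompletionN hAB) N hQ α hα

/-- Equivariant `Z`-stability. -/
theorem conj_main {A Z B : Type u} [NonUnitalCStarAlgebra A] [CStarAlgebra Z]
    [NonUnitalCStarAlgebra B] [TopologicalSpace.SeparableSpace A] (hS : IsSimpleAlg A)
    (hA : IsNuclearAlg A) (hZ : IsJiangSuAlgebra Z) (hZ' : IsStronglySelfAbsorbing Z)
    (T : A →ₗ[ℂ] Z →ₗ[ℂ] B) (hB : IsTensorProd T) (hAB : Nonempty (A ≃⋆ₐ[ℂ] B))
    {G : Type w} [Group G] [Countable G] (N : Subgroup G) [N.Normal] (hQ : IsAmenable (G ⧸ N))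
    (α : G →* (A ≃⋆ₐ[ℂ] A)) (hα : ∀ n ∈ N, IsInner (α n) ∨ IsCentrallyTrivial (α n))
    (β : G →* (B ≃⋆ₐ[ℂ] B)) (hβ : ∀ g a z, β g (T a z) = T (α g a) z) : IsCocycleConj α β :=
  isCocycleConj_of ((zstableN_of_local α
    (noCharLocalN_main hS hA hZ hZ' T hB hAB N hQ α hα)).conj Z B T β hZ
      hB.isTensorCompletionN hβ)

end Vale.Agent.P095H
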