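import Vale.Agent.P095.Bdl.B19

/-! Averaging over cosets of a quotient group: the group itself need not be amenable. -/

set_option linter.all false

open Filter Topology

namespace Vale.Agent.P095H

open Vale.Agent.P101 Vale.Agent.P101.SeqQuot Vale.Agent.P095 Vale.Agent.P095J Vale.Agent.P095N
open Vale.Agent.P133 Vale.Agent.P095K

universe u v w x

section avg

variable {M : Type u} [CStarAlgebra M] {G : Type w} [Group G] (β : G →* (M ≃⋆ₐ[ℂ] M))
  {Q : Type x} [Group Q]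

/-- The weighted sum over cosets. -/
noncomputable def wSum (N : Subgroup Q) (K : Finset Q) (P : Finset (Q ⧸ N)) (σ : Q ⧸ N → G)
    (s : M) : M :=
  ∑ q ∈ P, Real.sqrt (cosetDist N K q) • β (σ q) s

variable {β}

theorem wSum_comm (N : Subgroup Q) (K : Finset Q) (P : Finset (Q ⧸ N)) (σ : Q ⧸ N → G) (s x : M) (κ : ℝ)
    (h : ∀ q ∈ P, ‖s * β (σ q)⁻¹ x - β (σ q)⁻¹ x * s‖ ≤ κ) :
    ‖wSum β N K P σ s * x - x * wSum β N K P σ s‖ ≤ P.card * κ := by
  have e : wSum β N K P σ s * x - x * wSum β N K P σ s =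
      ∑ q ∈ P, Real.sqrt (cosetDist N K q) • β (σ q)
        (s * β (σ q)⁻¹ x - β (σ q)⁻¹ x * s) := by
    unfold wSum
    rw [Finset.sum_mul, Finset.mul_sum, ← Finset.sum_sub_distrib]
    refine Finset.sum_congr rfl fun q _ => ?_
    rw [map_sub, map_mul, map_mul, act_act_inv, smul_sub, smul_mul_assoc, mul_smul_comm]
  rw [e]
  refine (norm_sum_le _ _).trans ?_
  calc ∑ q ∈ P, ‖Real.sqrt (cosetDist N K q) • β (σ q)
        (s * β (σ q)⁻¹ x - β (σ q)⁻¹ x * s)‖ ≤ ∑ _q ∈ P, κ := by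
        refine Finset.sum_le_sum fun q hq => ?_
        rw [norm_smul, norm_act, Real.norm_of_nonneg (Real.sqrt_nonneg _)]
        have h1 : Real.sqrt (cosetDist N K q) ≤ 1 := by
          rw [Real.sqrt_le_one]
          exact cosetDist_le_one N K q
        calc Real.sqrt (cosetDist N K q) * _ ≤ 1 * ‖s * β (σ q)⁻¹ x -
              β (σ q)⁻¹ x * s‖ := mul_le_mul_of_nonneg_right h1 (norm_nonneg _)
          _ ≤ κ := by rw [one_mul]; exact h q hq
    _ = P.card * κ := by rw [Finset.sum_const, nsmul_eq_mul]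

theorem wSum_quad (N : Subgroup Q) (K : Finset Q) (hK : K.Nonempty) (P : Finset (Q ⧸ N)) (σ : Q ⧸ N → G)
    (hP : ∀ k ∈ K, (k : Q ⧸ N) ∈ P) (x e b : M) (η : ℝ)
    (h1 : ∀ q ∈ P, ‖(star (β (σ q) x) * β (σ q) x - e) * b‖ ≤ η)
    (h2 : ∀ q ∈ P, ∀ q' ∈ P, q ≠ q' →
      ‖star (β (σ q) x) * β (σ q') x * b‖ ≤ η) :
    ‖(star (wSum β N K P σ x) * wSum β N K P σ x - e) * b‖ ≤ P.card * (P.card * η) := by
  classical
  have hsum1 : ∑ q ∈ P, Real.sqrt (cosetDist N K q) * Real.sqrt (cosetDist N K q) = 1 := by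
    rw [← cosetDist_sum N K hK P hP]
    exact Finset.sum_congr rfl fun q _ => Real.mul_self_sqrt (cosetDist_nonneg N K q)
  have h3 := norm_quad_le P (fun q => β (σ q) x) (fun q => β (σ q) x * b)
    (fun q => Real.sqrt (cosetDist N K q)) (fun q => Real.sqrt (cosetDist N K q))
    (fun q _ => sqrt_dist_abs_le N K q) (fun q _ => sqrt_dist_abs_le N K q) (e * b) η
    (fun q hq => by rw [← mul_assoc, ← sub_mul]; exact h1 q hq)
    (fun q hq q' hq' hne => by rw [← mul_assoc]; exact h2 q hq q' hq' hne)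
  rw [hsum1, one_smul] at h3
  have e1 : (star (wSum β N K P σ x) * wSum β N K P σ x - e) * b =
      star (∑ q ∈ P, Real.sqrt (cosetDist N K q) • β (σ q) x) *
        (∑ q ∈ P, Real.sqrt (cosetDist N K q) • (β (σ q) x * b)) - e * b := by
    unfold wSum
    rw [sub_mul, mul_assoc]
    congr 2
    rw [Finset.sum_mul]
    exact Finset.sum_congr rfl fun q _ => smul_mul_assoc _ _ _
  rw [e1]
  exact h3

theorem wSum_off (N : Subgroup Q) (K : Finset Q) (P : Finset (Q ⧸ N)) (σ : Q ⧸ N → G) (x y b : M) (η : ℝ)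
    (h : ∀ q ∈ P, ∀ q' ∈ P, ‖star (β (σ q) x) * β (σ q') y * b‖ ≤ η) :
    ‖star (wSum β N K P σ x) * wSum β N K P σ y * b‖ ≤ P.card * (P.card * η) := by
  classical
  have h6 := norm_quad_le P (fun q => β (σ q) x) (fun q => β (σ q) y * b)
    (fun q => Real.sqrt (cosetDist N K q)) (fun q => Real.sqrt (cosetDist N K q))
    (fun q _ => sqrt_dist_abs_le N K q) (fun q _ => sqrt_dist_abs_le N K q) 0 η
    (fun q hq => by rw [sub_zero, ← mul_assoc]; exact h q hq q hq)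
    (fun q hq q' hq' _ => by rw [← mul_assoc]; exact h q hq q' hq')
  rw [smul_zero, sub_zero] at h6
  have e1 : star (wSum β N K P σ x) * wSum β N K P σ y * b =
      star (∑ q ∈ P, Real.sqrt (cosetDist N K q) • β (σ q) x) *
        (∑ q ∈ P, Real.sqrt (cosetDist N K q) • (β (σ q) y * b)) := by
    unfold wSum
    rw [mul_assoc]
    congr 1
    rw [Finset.sum_mul]
    exact Finset.sum_congr rfl fun q _ => smul_mul_assoc _ _ _
  rw [e1]
  exact h6

theorem norm_wSum_le (N : Subgroup Q) (K : Finset Q) (P : Finset (Q ⧸ N)) (σ : Q ⧸ N → G) (x : M)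
    (hx : ‖x‖ ≤ 2) : ‖wSum β N K P σ x‖ ≤ 2 * P.card := by
  refine (norm_sum_le _ _).trans ?_
  calc ∑ q ∈ P, ‖Real.sqrt (cosetDist N K q) • β (σ q) x‖ ≤ ∑ _q ∈ P, (2 : ℝ) := by
        refine Finset.sum_le_sum fun q _ => ?_
        rw [norm_smul, norm_act, Real.norm_eq_abs]
        have h := sqrt_dist_abs_le N K q
        have h2 := abs_nonneg (Real.sqrt (cosetDist N K q))
        nlinarith only [h, hx, h2]
    _ = 2 * P.card := by rw [Finset.sum_const, nsmul_eq_mul, mul_comm]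

open Classical in
theorem wSum_fix (N : Subgroup Q) (K : Finset Q) (hK : K.Nonempty) (P : Finset (Q ⧸ N)) (σ : Q ⧸ N → G)
    (s e b : M) (B : ℝ) (hb : ‖b‖ ≤ B) (he : ‖e‖ ≤ 1) (g : G) (γ : Q)
    (hP : ∀ k ∈ K, (k : Q ⧸ N) ∈ P)
    (hgP : ∀ k ∈ K, ((γ * k : Q) : Q ⧸ N) ∈ P) (ε₁ η₁ η₂ : ℝ)
    (hg : ((K.filter (fun h => γ * h ∉ K)).card : ℝ) ≤ ε₁ * (K.card : ℝ))
    (h1 : ∀ q ∈ P, ‖(star (β (σ q) s) * β (σ q) s - e) * b‖ ≤ η₁)
    (h2 : ∀ q ∈ P, ∀ q' ∈ P, q ≠ q' →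
      ‖star (β (σ q) s) * β (σ q') s * b‖ ≤ η₁)
    (h3 : ∀ q ∈ P, ‖(β g (β (σ q) s) - β (σ (γ • q)) s) * b‖ ≤ η₂) :
    ‖(β g (wSum β N K P σ s) - wSum β N K P σ s) * b‖ ≤
      P.card * η₂ + Real.sqrt (B * (2 * ε₁ * B + P.card * (P.card * η₁))) := by
  set a : Q ⧸ N → ℝ := fun q => Real.sqrt (cosetDist N K q) with ha
  set f : Q ⧸ N → M := fun q => β (σ q) s with hf
  have hB0 : 0 ≤ B := (norm_nonneg _).trans hb
  have hS : wSum β N K P σ s = ∑ q ∈ P, a q • f q := rfl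
  set P₀ : Finset (Q ⧸ N) := K.image (fun k : Q => (k : Q ⧸ N)) with hP₀
  have ha0 : ∀ q, q ∉ P₀ → a q = 0 := by
    intro q hq
    simp only [ha]
    rw [cosetDist_eq_zero N K q, Real.sqrt_zero]
    intro k hk hkq
    exact hq (Finset.mem_image.2 ⟨k, hk, hkq⟩)
  have hP₀P : P₀ ⊆ P := by
    intro q hq
    obtain ⟨k, hk, rfl⟩ := Finset.mem_image.1 hq
    exact hP k hk
  have hgP₀P : P₀.image (fun q => γ • q) ⊆ P := by
    intro q hq
    obtain ⟨q', hq', rfl⟩ := Finset.mem_image.1 hq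
    obtain ⟨k, hk, rfl⟩ := Finset.mem_image.1 hq'
    exact hgP k hk
  have hshift : ∑ q ∈ P, a q • f (γ • q) = ∑ q ∈ P, a (γ⁻¹ • q) • f q := by
    rw [← Finset.sum_subset hP₀P fun q _ hq => by rw [ha0 q hq, zero_smul],
      ← Finset.sum_subset hgP₀P fun q _ hq => by
        rw [ha0 (γ⁻¹ • q), zero_smul]
        intro h
        exact hq (Finset.mem_image.2 ⟨_, h, smul_inv_smul γ q⟩),
      Finset.sum_image fun x _ y _ h => (MulAction.injective γ) h]
    refine Finset.sum_congr rfl fun q _ => ?_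
    rw [inv_smul_smul]
  have hact : β g (∑ q ∈ P, a q • f q) = ∑ q ∈ P, a q • β g (f q) := by
    rw [map_sum]
    exact Finset.sum_congr rfl fun q _ => act_smul_real g _ _
  have e0 : β g (wSum β N K P σ s) - wSum β N K P σ s =
      (∑ q ∈ P, a q • (β g (f q) - f (γ • q))) + ∑ q ∈ P, (a (γ⁻¹ • q) - a q) • f q := by
    rw [hS, hact]
    simp only [smul_sub, sub_smul, Finset.sum_sub_distrib]
    rw [hshift]
    abel
  have e1 : (β g (wSum β N K P σ s) - wSum β N K P σ s) * b =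
      (∑ q ∈ P, a q • ((β g (f q) - f (γ • q)) * b)) +
        ∑ q ∈ P, (a (γ⁻¹ • q) - a q) • (f q * b) := by
    rw [e0, add_mul, Finset.sum_mul, Finset.sum_mul]
    simp only [smul_mul_assoc]
  have n1 : ‖∑ q ∈ P, a q • ((β g (f q) - f (γ • q)) * b)‖ ≤ P.card * η₂ := by
    refine (norm_sum_le _ _).trans ?_
    calc ∑ q ∈ P, ‖a q • ((β g (f q) - f (γ • q)) * b)‖ ≤ ∑ _q ∈ P, η₂ := by
          refine Finset.sum_le_sum fun q hq => ?_
          rw [norm_smul, Real.norm_eq_abs]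
          calc |a q| * _ ≤ 1 * ‖(β g (f q) - f (γ • q)) * b‖ :=
                mul_le_mul_of_nonneg_right (sqrt_dist_abs_le N K q) (norm_nonneg _)
            _ ≤ η₂ := by rw [one_mul]; exact h3 q hq
      _ = P.card * η₂ := by rw [Finset.sum_const, nsmul_eq_mul]
  have n2 : ‖∑ q ∈ P, (a (γ⁻¹ • q) - a q) • (f q * b)‖ ≤
      Real.sqrt (B * (2 * ε₁ * B + P.card * (P.card * η₁))) := by
    refine Real.le_sqrt_of_sq_le ?_
    rw [sq, ← CStarRing.norm_star_mul_self]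
    have e2 : star (∑ q ∈ P, (a (γ⁻¹ • q) - a q) • (f q * b)) *
        (∑ q ∈ P, (a (γ⁻¹ • q) - a q) • (f q * b)) =
        star b * (star (∑ q ∈ P, (a (γ⁻¹ • q) - a q) • f q) *
          ∑ q ∈ P, (a (γ⁻¹ • q) - a q) • (f q * b)) := by
      rw [← mul_assoc, ← star_mul, Finset.sum_mul]
      simp only [smul_mul_assoc]
    rw [e2]
    refine (norm_mul_le _ _).trans ?_
    rw [norm_star]
    refine mul_le_mul hb ?_ (norm_nonneg _) hB0
    have h4 := norm_quad_le P f (fun q => f q * b) (fun q => a (γ⁻¹ • q) - a q)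
      (fun q => a (γ⁻¹ • q) - a q)
      (fun q _ => sqrt_dist_sub_abs_le N K _ _) (fun q _ => sqrt_dist_sub_abs_le N K _ _)
      (e * b) η₁ (fun q hq => by rw [← mul_assoc, ← sub_mul]; exact h1 q hq)
      (fun q hq q' hq' hne => by rw [← mul_assoc]; exact h2 q hq q' hq' hne)
    have heb : ‖e * b‖ ≤ B := by
      refine (norm_mul_le _ _).trans ?_
      nlinarith only [hb, he, norm_nonneg b]
    have h5 : ‖(∑ q ∈ P, (a (γ⁻¹ • q) - a q) * (a (γ⁻¹ • q) - a q)) • (e * b)‖ ≤ 2 * ε₁ * B := by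
      rw [norm_smul, Real.norm_of_nonneg (Finset.sum_nonneg fun q _ => mul_self_nonneg _)]
      have h6 : ∑ q ∈ P, (a (γ⁻¹ • q) - a q) * (a (γ⁻¹ • q) - a q) ≤
          ∑ q ∈ P, |cosetDist N K (γ⁻¹ • q) - cosetDist N K q| := by
        refine Finset.sum_le_sum fun q _ => ?_
        rw [← sq]
        exact sq_sqrt_sub_le (cosetDist_nonneg N K _) (cosetDist_nonneg N K _)
      have h7 := cosetDist_diff N K γ ε₁ hg hK P
      have h8 : 0 ≤ ∑ q ∈ P, (a (γ⁻¹ • q) - a q) * (a (γ⁻¹ • q) - a q) :=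
        Finset.sum_nonneg fun q _ => mul_self_nonneg _
      exact mul_le_mul (h6.trans h7) heb (norm_nonneg _) (h8.trans (h6.trans h7))
    have h9 := norm_add_le ((star (∑ q ∈ P, (a (γ⁻¹ • q) - a q) • f q) *
      ∑ q ∈ P, (a (γ⁻¹ • q) - a q) • (f q * b)) -
        (∑ q ∈ P, (a (γ⁻¹ • q) - a q) * (a (γ⁻¹ • q) - a q)) • (e * b))
        ((∑ q ∈ P, (a (γ⁻¹ • q) - a q) * (a (γ⁻¹ • q) - a q)) • (e * b))
    rw [sub_add_cancel] at h9
    linarith only [h4, h5, h9]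
  rw [e1]
  exact (norm_add_le _ _).trans (add_le_add n1 n2)

end avg

end Vale.Agent.P095H
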