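import Vale.Agent.P095.MathlibUsed

/-! Inner and centrally trivial automorphisms, for the final statement. -/

open scoped MultiplierAlgebra

namespace Vale.Agent.P095H

universe u

/-- `φ = Ad v` for a unitary multiplier `v` of `A`. -/
def IsInner {A : Type u} [NonUnitalCStarAlgebra A] (φ : A ≃⋆ₐ[ℂ] A) : Prop :=
  ∃ v ∈ unitary 𝓜(ℂ, A), ∀ a : A, ((φ a : A) : 𝓜(ℂ, A)) = v * (a : 𝓜(ℂ, A)) * star v

/-- `φ` is centrally trivial, that is, it acts trivially on the central sequence algebra of `A`: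
if `x` is a contraction in `A` which almost commutes with a large finite subset of `A`, then
`φ x - x` is small against a given finite subset of `A`. -/
def IsCentrallyTrivial {A : Type u} [NonUnitalCStarAlgebra A] (φ : A ≃⋆ₐ[ℂ] A) : Prop :=
  ∀ (T : Finset A) (ε : ℝ), 0 < ε → ∃ (F : Finset A) (δ : ℝ), 0 < δ ∧
    ∀ x : A, ‖x‖ ≤ 1 → (∀ a ∈ F, ‖x * a - a * x‖ ≤ δ) → ∀ b ∈ T, ‖(φ x - x) * b‖ ≤ ε

end Vale.Agent.P095H
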