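import Vale.Agent.P095.H681.SI

/-! The equivariant McDuff property of the action on the relative central sequence algebra when
only a quotient of the group is amenable, and the local conclusion. -/

set_option linter.all false

open Filter Topology

namespace Vale.Agent.P095H

open Vale.Agent.P101 Vale.Agent.P101.SeqQuot Vale.Agent.P095 Vale.Agent.P095J Vale.Agent.P095N
open Vale.Agent.P133

universe u v w x

section mc

variable {M : Type u} [CStarAlgebra M] {I : CIdeal M} {G : Type w} [Group G]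
  {β : G →* (M ≃⋆ₐ[ℂ] M)} {Q : Type x} [Group Q]

/-- The induced action of the quotient on the relative central sequence algebra. -/
noncomputable def quotAct (hβ : InvI I β) {ι : Type v} (μ : Filter ι) (π : G →* Q)
    (hπ : Function.Surjective π) (hker : ∀ n, π n = 1 → CentTrivI I (β n)) :
    Q →* (FR I μ ≃⋆ₐ[ℂ] FR I μ) :=
  π.liftOfRightInverse (Function.surjInv hπ) (Function.rightInverse_surjInv hπ)
    ⟨FR.actE β hβ μ, fun n hn => by
      rw [MonoidHom.mem_ker] at hn ⊢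
      refine StarAlgEquiv.ext fun y => ?_
      exact act_eq_of_centTriv hβ μ (hker n hn) y⟩

theorem quotAct_apply (hβ : InvI I β) {ι : Type v} (μ : Filter ι) (π : G →* Q)
    (hπ : Function.Surjective π) (hker : ∀ n, π n = 1 → CentTrivI I (β n)) (g : G) :
    quotAct hβ μ π hπ hker (π g) = FR.actE β hβ μ g :=
  MonoidHom.liftOfRightInverse_comp_apply _ _ _ _ _

theorem exists_w_FRW (hsep : P095N.SepI I) {ι : Type} {μ : Filter ι} [NeBot μ]
    (h : IsEmpty (FR I μ →⋆ₐ[ℂ] ℂ)) (hβ : InvI I β) (π : G →* Q)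
    (hπ : Function.Surjective π) (hQ : IsAmenable Q)
    (hker : ∀ n, π n = 1 → CentTrivI I (β n)) (S : Finset G) (ε : ℝ) (hε : 0 < ε) :
    ∃ w : FR I (atTop : Filter ℕ), ‖w‖ ≤ 1 ∧
      (∀ g ∈ S, ‖FR.actE β hβ (atTop : Filter ℕ) g w - w‖ ≤ ε) ∧ TwoNormLE (w * w) ε ∧
      TwoNormLE (star w * w + w * star w - 1) ε := by
  classical
  let _ : PartialOrder (FR I (atTop : Filter ℕ)) := CStarAlgebra.spectralOrder _
  have _ : StarOrderedRing (FR I (atTop : Filter ℕ)) := CStarAlgebra.spectralOrderedRing _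
  have hc := commGlue hsep h
  obtain ⟨w, h1, -, h2, h3, h4⟩ := lift_mcduff (quotAct hβ (atTop : Filter ℕ) π hπ hker)
    (mcduff_main _ hQ (uniformMcDuff_of_commGlue hc) (uniformGamma_of_commGlue hc)) ∅
    (S.image π) ε hε
  refine ⟨w, h1, fun g hg => ?_, h3, h4⟩
  have h5 := h2 (π g) (Finset.mem_image_of_mem _ hg)
  rwa [quotAct_apply] at h5

/-- The relative lift property. -/
theorem liftW [PartialOrder M] [StarOrderedRing M] (hsep : P095N.SepI I) {ι : Type} {μ : Filter ι}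
    [NeBot μ] (h : IsEmpty (FR I μ →⋆ₐ[ℂ] ℂ)) (hβ : InvI I β) (π : G →* Q)
    (hπ : Function.Surjective π) (hQ : IsAmenable Q)
    (hker : ∀ n, π n = 1 → CentTrivI I (β n)) : P095K.LiftR I β := by
  intro F U S ε hF hU hε
  set C : ℝ := 1 + ∑ a ∈ F, ‖a‖ + ∑ u ∈ U, ‖u‖ ^ 2 with hC
  have hF0 : 0 ≤ ∑ a ∈ F, ‖a‖ := Finset.sum_nonneg fun _ _ => norm_nonneg _
  have hU0 : 0 ≤ ∑ u ∈ U, ‖u‖ ^ 2 := Finset.sum_nonneg fun _ _ => sq_nonneg _
  have hC0 : 0 < C := by linarith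
  have hCF : ∀ a ∈ F, ‖a‖ < C := fun a ha => by
    have : ‖a‖ ≤ ∑ a ∈ F, ‖a‖ :=
      Finset.single_le_sum (f := fun a : M => ‖a‖) (fun _ _ => norm_nonneg _) ha
    linarith only [hU0, this]
  have hCU : ∀ u ∈ U, ‖u‖ ^ 2 < C := fun u hu => by
    have : ‖u‖ ^ 2 ≤ ∑ u ∈ U, ‖u‖ ^ 2 :=
      Finset.single_le_sum (f := fun u : M => ‖u‖ ^ 2) (fun _ _ => sq_nonneg _) hu
    linarith
  set ε₀ : ℝ := min 1 (ε / C) with hε₀
  have h0 : 0 < ε₀ := lt_min one_pos (by (clear * - hε; positivity))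
  have h01 : ε₀ ≤ 1 := min_le_left _ _
  have h02 : ε₀ * C ≤ ε := by
    have := min_le_right 1 (ε / C)
    calc ε₀ * C ≤ ε / C * C := mul_le_mul_of_nonneg_right this hC0.le
      _ = ε := by (clear * - hC0 hε; field_simp)
  obtain ⟨w, hw1, hwS, hw2, hw3⟩ := exists_w_FRW hsep h hβ π hπ hQ hker S ε₀ h0
  obtain ⟨x, rfl, hx1⟩ := FR.exists_lift_one w hw1
  have c1 : ∀ᶠ i in (atTop : Filter ℕ), ∀ a ∈ F, ‖(x : ℕ → M) i * a - a * (x : ℕ → M) i‖ ≤ ε :=
    (Filter.eventually_all_finset F).2 fun a ha =>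
      (relSeq_comm x (hF a ha)).eventually (eventually_le_nhds hε)
  have c2 : ∀ᶠ i in (atTop : Filter ℕ), ∀ a ∈ F, ∀ g ∈ S,
      ‖(β g ((x : ℕ → M) i) - (x : ℕ → M) i) * a‖ ≤ ε := by
    refine (Filter.eventually_all_finset F).2 fun a ha =>
      (Filter.eventually_all_finset S).2 fun g hg => ?_
    have h1 : FR.mk I atTop (FR.actSeq β hβ atTop g x - x) =
        FR.actE β hβ (atTop : Filter ℕ) g (FR.mk I atTop x) - FR.mk I atTop x := by
      rw [map_sub, FR.actE_apply, FR.act_mk]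
    have h2 : ‖FR.mk I atTop (FR.actSeq β hβ atTop g x - x)‖ * ‖a‖ < ε := by
      rw [h1]
      calc _ ≤ ε₀ * ‖a‖ := mul_le_mul_of_nonneg_right (hwS g hg) (norm_nonneg _)
        _ < ε₀ * C := mul_lt_mul_of_pos_left (hCF a ha) h0
        _ ≤ ε := h02
    exact (FR.eventually_mul_lt _ (hF a ha) h2).mono fun i hi => hi.le
  have c3 : ∀ᶠ i in (atTop : Filter ℕ), ∀ u ∈ U, Small u (defectN ((x : ℕ → M) i)) ε := by
    refine (Filter.eventually_all_finset U).2 fun u hu => ?_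
    have h1 : ‖u‖ ^ 2 * ε₀ ^ 2 < ε := by
      have h2 : ε₀ ^ 2 ≤ ε₀ := by nlinarith only [h0, h01]
      calc ‖u‖ ^ 2 * ε₀ ^ 2 ≤ ‖u‖ ^ 2 * ε₀ := mul_le_mul_of_nonneg_left h2 (sq_nonneg _)
        _ < C * ε₀ := mul_lt_mul_of_pos_right (hCU u hu) h0
        _ ≤ ε := by rw [mul_comm]; exact h02
    have h2 : TwoNormLE (FR.mk I atTop (x * x)) ε₀ := by rw [map_mul]; exact hw2
    have h3 : TwoNormLE (FR.mk I atTop (star x * x + x * star x - 1)) ε₀ := by
      rw [map_sub, map_add, map_mul, map_mul, map_star, map_one]; exact hw3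
    refine (eventually_small (IsSelfAdjoint.of_nonneg (hU u hu).2) (hU u hu).1 (x * x)
      (star x * x + x * star x - 1) h2 h3 h1).mono fun i hi => ?_
    rw [defectN_eq]
    exact hi
  obtain ⟨i, h1, h2, h3⟩ := (c1.and (c2.and c3)).exists
  exact ⟨(x : ℕ → M) i, ⟨hx1 i, fun a ha => ⟨h1 a ha, fun g hg => h2 a ha g hg⟩⟩, h3⟩

open P095K in
/-- The local output of the relative theory, for groups with an amenable quotient. -/
theorem localNoCharR_ofW [PartialOrder M] [StarOrderedRing M] (hS : SimpleI I)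
    (hne : ∃ b ∈ I, b ≠ 0) (hsep : P095N.SepI I)
    (hN : P083.IsNuclear M) (hNC : NoCharLocI I) (hβ : InvI I β) (π : G →* Q)
    (hπ : Function.Surjective π) (hQ : IsAmenable Q)
    (hker : ∀ n, π n = 1 → CentTrivI I (β n)) : LocalNoCharR I β := by
  have hF := isEmpty_char_FR hsep hNC
  obtain ⟨b, hb, hb0, hb1⟩ := exists_b0 hne
  have : Nontrivial M := ⟨⟨b, 0, fun h => by rw [h, norm_zero] at hb1; exact zero_ne_one hb1⟩⟩
  have h2 := twoOrthR_of hS hsep b hb hb0 hb1 hF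
  have hSI : SIR I b := P095M.sir_of_cpap hS b hb hb1.le (cpapR_of_isNuclear hN)
    (P095M.centOrthR_of_two hS hb hb0 hb1 h2) (P095C.cmpI hN I hS (upLocal_of_isEmpty I hF))
  exact P095K.localNoCharR_of_eqSIR I β hβ
    (eq_siW hS ⟨hsep⟩ hβ hb hb1 h2 hSI π hπ hQ hker) (liftW hsep hF hβ π hπ hQ hker)

end mc

end Vale.Agent.P095H
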