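import Vale.Agent.P095.H681.Avg

/-! Equivariant relative property (SI) when only a quotient of the group is amenable. -/

set_option linter.all false

open Filter Topology

namespace Vale.Agent.P095H

open Vale.Agent.P101 Vale.Agent.P101.SeqQuot Vale.Agent.P095 Vale.Agent.P095J Vale.Agent.P095N
open Vale.Agent.P133 Vale.Agent.P095K

universe u v w x

section si

variable {M : Type u} [CStarAlgebra M] {I : CIdeal M} {G : Type w} [Group G]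
  {β : G →* (M ≃⋆ₐ[ℂ] M)} {Q : Type x} [Group Q]

/-- `φ` moves the elements of norm at most one which almost commute with a large part of `I` only
a little, measured against `I`. -/
def CentTrivI (I : CIdeal M) (φ : M ≃⋆ₐ[ℂ] M) : Prop :=
  ∀ (T : Finset M) (ε : ℝ), (∀ b ∈ T, b ∈ I) → 0 < ε → ∃ (F : Finset M) (δ : ℝ),
    (∀ a ∈ F, a ∈ I) ∧ 0 < δ ∧ ∀ x : M, ‖x‖ ≤ 1 → (∀ a ∈ F, ‖x * a - a * x‖ ≤ δ) →
      ∀ b ∈ T, ‖(φ x - x) * b‖ ≤ ε

/-- Such automorphisms act trivially on the relative central sequence algebras. -/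
theorem act_eq_of_centTriv (hβ : InvI I β) {ι : Type v} (μ : Filter ι) {n : G}
    (h : CentTrivI I (β n)) (y : FR I μ) : FR.act β hβ μ n y = y := by
  obtain ⟨y, rfl⟩ := FR.mk_surjective y
  rw [FR.act_mk, FR.mk_eq_iff]
  intro b hb
  obtain ⟨⟨C, hC⟩, hy⟩ := y.2
  set D : ℝ := max C 1 with hD
  have hD0 : 0 < D := lt_of_lt_of_le one_pos (le_max_right _ _)
  rw [Metric.tendsto_nhds]
  intro ε hε
  obtain ⟨F, δ, hF, hδ, hx⟩ := h {b} (ε / (2 * D)) (by simpa using hb) (by positivity)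
  have h1 : ∀ᶠ i in μ, ∀ a ∈ F, ‖(y : ι → M) i * a - a * (y : ι → M) i‖ < D * δ :=
    (Finset.eventually_all F).2 fun a ha => (hy a (hF a ha)).eventually
      (gt_mem_nhds (by positivity))
  filter_upwards [h1] with i hi
  rw [dist_zero_right, norm_norm]
  have h2 := hx (D⁻¹ • (y : ι → M) i) (by
    rw [norm_smul, norm_inv, Real.norm_of_nonneg hD0.le, inv_mul_le_iff₀ hD0, mul_one]
    exact (hC i).trans (le_max_left _ _)) (fun a ha => by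
      rw [smul_mul_assoc, mul_smul_comm, ← smul_sub, norm_smul, norm_inv,
        Real.norm_of_nonneg hD0.le, inv_mul_le_iff₀ hD0]
      exact (hi a ha).le) b (Finset.mem_singleton_self b)
  rw [act_smul_real, ← smul_sub, smul_mul_assoc, norm_smul, norm_inv,
    Real.norm_of_nonneg hD0.le, inv_mul_le_iff₀ hD0] at h2
  show ‖(β n ((y : ι → M) i) - (y : ι → M) i) * b‖ < ε
  refine h2.trans_lt ?_
  have e : D * (ε / (2 * D)) = ε / 2 := by field_simp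
  rw [e]
  linarith

theorem mem_triv_of_map (hβ : InvI I β) (ω : Filter ℕ) (π : G →* Q)
    (hker : ∀ n, π n = 1 → CentTrivI I (β n)) (g : G) (hg : π g ∈ (trivSubR hβ ω).map π) :
    g ∈ trivSubR hβ ω := by
  obtain ⟨n, hn, hng⟩ := Subgroup.mem_map.1 hg
  have h1 : g * n⁻¹ ∈ trivSubR hβ ω := by
    intro y
    refine act_eq_of_centTriv hβ ω (hker _ ?_) y
    rw [map_mul, map_inv, hng, mul_inv_cancel]
  have h2 := (trivSubR hβ ω).mul_mem h1 hn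
  rwa [inv_mul_cancel_right] at h2

open Classical in
/-- Construction of the averaged elements. -/
theorem core_avgW (π : G →* Q) (N : Subgroup Q) (K : Finset Q) (hK : K.Nonempty) (P : Finset (Q ⧸ N))
    (σ : Q ⧸ N → G) (S : Finset G) (hPK : ∀ k ∈ K, (k : Q ⧸ N) ∈ P)
    (hPSK : ∀ g ∈ S, ∀ k ∈ K, ((π g * k : Q) : Q ⧸ N) ∈ P) (ε₁ B η₁ η₂ κ' : ℝ)
    (hε₁ : 0 < ε₁) (hε₁1 : ε₁ ≤ 1) (hB : 1 ≤ B)
    (hMη₁ : (P.card : ℝ) * (P.card * η₁) = ε₁ ^ 2 / (8 * B))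
    (hMη₂ : (P.card : ℝ) * η₂ = ε₁ / 2) (hMκ : (P.card : ℝ) * κ' ≤ ε₁)
    (hKS : ∀ g ∈ S, ((K.filter (fun h => π g * h ∉ K)).card : ℝ) ≤
      ε₁ ^ 2 / (16 * B ^ 2) * (K.card : ℝ))
    (e : M) (he1 : ‖e‖ ≤ 1) (x b : M) (hb : ‖b‖ ≤ B)
    (h1 : ∀ q ∈ P, ‖(star (β (σ q) x) * β (σ q) x - e) * b‖ ≤ η₁)
    (h2 : ∀ q ∈ P, ∀ q' ∈ P, q ≠ q' →
      ‖star (β (σ q) x) * β (σ q') x * b‖ ≤ η₁)
    (h3 : ∀ g ∈ S, ∀ q ∈ P,
      ‖(β g (β (σ q) x) - β (σ (π g • q)) x) * b‖ ≤ η₂)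
    (h4 : ∀ q ∈ P, ‖x * β (σ q)⁻¹ b - β (σ q)⁻¹ b * x‖ ≤ κ') :
    ‖wSum β N K P σ x * b - b * wSum β N K P σ x‖ ≤ ε₁ ∧
    (∀ g ∈ S, ‖(β g (wSum β N K P σ x) - wSum β N K P σ x) * b‖ ≤ ε₁) ∧
    ‖(star (wSum β N K P σ x) * wSum β N K P σ x - e) * b‖ ≤ ε₁ := by
  have hB0 : 0 < B := lt_of_lt_of_le one_pos hB
  have hθ : ε₁ ^ 2 / (8 * B) ≤ ε₁ := by
    rw [div_le_iff₀ (by positivity)]
    nlinarith only [hε₁, hε₁1, hB]
  have f1 := wSum_quad N K hK P σ hPK x e b η₁ h1 h2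
  rw [hMη₁] at f1
  refine ⟨(wSum_comm N K P σ x b κ' h4).trans hMκ, fun g hg => ?_, f1.trans hθ⟩
  have h5 := wSum_fix (β := β) N K hK P σ x e b B hb he1 g (π g) hPK (hPSK g hg)
    (ε₁ ^ 2 / (16 * B ^ 2)) η₁ η₂ (hKS g hg) h1 h2 (h3 g hg)
  rw [hMη₁, hMη₂] at h5
  have h6 : Real.sqrt (B * (2 * (ε₁ ^ 2 / (16 * B ^ 2)) * B + ε₁ ^ 2 / (8 * B))) = ε₁ / 2 := by
    rw [show B * (2 * (ε₁ ^ 2 / (16 * B ^ 2)) * B + ε₁ ^ 2 / (8 * B)) = (ε₁ / 2) ^ 2 by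
      field_simp; ring]
    exact Real.sqrt_sq (by positivity)
  rw [h6] at h5
  linarith only [h5]


open Classical in
/-- From relative (SI) to equivariant relative (SI). -/
theorem eq_siW [PartialOrder M] [StarOrderedRing M] (hS : SimpleI I) (hI : P095K.SepI I)
    (hβ : InvI I β) {b₀ : M} (hb₀ : b₀ ∈ I) (hb₀1 : ‖b₀‖ = 1) (hO : CentOrthoR I b₀)
    (hSI : SIR I b₀) (π : G →* Q) (hπ : Function.Surjective π) (hQ : IsAmenable Q)
    (hker : ∀ n, π n = 1 → CentTrivI I (β n)) : EqSIR I β := by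
  intro X S ε hX hε
  set ε' : ℝ := min ε 1 with hε'
  have hε'0 : 0 < ε' := lt_min hε one_pos
  have hε'1 : ε' ≤ 1 := min_le_right _ _
  have hε'ε : ε' ≤ ε := min_le_left _ _
  set ε₁ : ℝ := ε' / 16 with hε₁
  have hε₁0 : 0 < ε₁ := by positivity
  have hε₁1 : ε₁ ≤ 1 := by rw [hε₁]; linarith only [hε'1]
  set B : ℝ := 1 + ∑ b ∈ X, ‖b‖ with hB
  have hB1 : 1 ≤ B := by
    have : 0 ≤ ∑ b ∈ X, ‖b‖ := Finset.sum_nonneg fun b _ => norm_nonneg b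
    linarith
  have hB0 : 0 < B := by linarith
  have hXB : ∀ b ∈ X, ‖b‖ ≤ B := by
    intro b hb
    have := Finset.single_le_sum (f := fun b : M => ‖b‖) (fun b _ => norm_nonneg b) hb
    have h2 : ‖b‖ ≤ ∑ b ∈ X, ‖b‖ := this
    linarith
  obtain ⟨K, hK, hKS0⟩ := hQ (S.image π) (ε₁ ^ 2 / (16 * B ^ 2)) (by (clear * - hε hB0; positivity))
  have hKS : ∀ g ∈ S, ((K.filter (fun h => π g * h ∉ K)).card : ℝ) ≤
      ε₁ ^ 2 / (16 * B ^ 2) * (K.card : ℝ) := fun g hg => hKS0 _ (Finset.mem_image_of_mem _ hg)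
  let ω : Filter ℕ := (hyperfilter ℕ : Filter ℕ)
  have hωle : ω ≤ atTop := Nat.hyperfilter_le_atTop
  have hu : ∀ s, s ∈ ω ∨ sᶜ ∈ ω := fun s => (hyperfilter ℕ).mem_or_compl_mem s
  let N : Subgroup Q := (trivSubR hβ ω).map π
  have hN : ∀ g : G, π g ∈ N → g ∈ trivSubR hβ ω := mem_triv_of_map hβ ω π hker
  let P : Finset (Q ⧸ N) := K.image (fun k : Q => (k : Q ⧸ N)) ∪
    S.biUnion fun g => K.image fun k : Q => ((π g * k : Q) : Q ⧸ N)
  have hPne : P.Nonempty := by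
    obtain ⟨k, hk⟩ := hK
    exact ⟨_, Finset.mem_union_left _ (Finset.mem_image_of_mem _ hk)⟩
  have hPK : ∀ k ∈ K, ((k : Q) : Q ⧸ N) ∈ P := fun k hk =>
    Finset.mem_union_left _ (Finset.mem_image_of_mem _ hk)
  have hPSK : ∀ g ∈ S, ∀ k ∈ K, ((π g * k : Q) : Q ⧸ N) ∈ P := fun g hg k hk =>
    Finset.mem_union_right _ (Finset.mem_biUnion.2 ⟨g, hg, Finset.mem_image.2 ⟨k, hk, rfl⟩⟩)
  set m : ℝ := (P.card : ℝ) with hm
  have hm0 : 0 < m := by rw [hm]; exact_mod_cast hPne.card_pos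
  set η₁ : ℝ := ε₁ ^ 2 / (8 * B * m ^ 2) with hη₁
  have hη₁0 : 0 < η₁ := by (clear * - hε hβ hPne; positivity)
  have hMη₁ : m * (m * η₁) = ε₁ ^ 2 / (8 * B) := by rw [hη₁]; field_simp
  set η₂ : ℝ := ε₁ / (2 * m) with hη₂
  have hη₂0 : 0 < η₂ := by (clear * - hε hβ hPne; positivity)
  have hMη₂ : m * η₂ = ε₁ / 2 := by rw [hη₂]; (clear * - hm0 hε₁0; field_simp)
  let o : Q ⧸ N → G := fun q => Function.surjInv hπ (Quotient.out q)
  have ho : ∀ q : Q ⧸ N, ((π (o q) : Q) : Q ⧸ N) = q := fun q => by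
    show ((π (Function.surjInv hπ (Quotient.out q)) : Q) : Q ⧸ N) = q
    rw [Function.surjInv_eq hπ]
    exact QuotientGroup.out_eq' q
  -- the cutting element
  obtain ⟨u, huI, husa, hu1, huX⟩ := exists_unitR (I := I)
    (X ∪ (S ×ˢ X).image fun p => β p.1⁻¹ p.2) (by
      intro b hb
      rcases Finset.mem_union.1 hb with hb | hb
      · exact hX b hb
      · obtain ⟨⟨g, b⟩, hgb, rfl⟩ := Finset.mem_image.1 hb
        exact hβ _ _ (hX _ (Finset.mem_product.1 hgb).2)) (ε₁ / (4 * m + 1)) (by (clear * - hε hβ hPne; positivity))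
  set ρ : ℝ := ε₁ / (4 * m + 1) with hρ
  have hρ0 : 0 < ρ := by (clear * - hε hβ hPne; positivity)
  have hRρ : 2 * ((2 * m) * ρ) ≤ ε₁ := (real_rho hε₁0 hm0).1
  have hρε : ρ ≤ ε₁ := (real_rho hε₁0 hm0).2
  let X₁ : Finset M := insert u X
  have hX₁I : ∀ b ∈ X₁, b ∈ I := fun b hb => by
    rcases Finset.mem_insert.1 hb with rfl | hb
    · exact huI
    · exact hX b hb
  have hX₁B : ∀ b ∈ X₁, ‖b‖ ≤ B := fun b hb => by
    rcases Finset.mem_insert.1 hb with rfl | hb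
    · exact hu1.trans hB1
    · exact hXB b hb
  let E : Finset G := ((P ×ˢ P).filter (fun p => p.1 ≠ p.2)).image fun p => (o p.1)⁻¹ * o p.2
  let E' : Finset G := (P ×ˢ P).image fun p => (o p.1)⁻¹ * o p.2
  have hE : ∀ g ∈ E, ∃ y : FR I ω, FR.act β hβ ω g y ≠ y := by
    intro g hg
    obtain ⟨⟨q, q'⟩, hqq, rfl⟩ := Finset.mem_image.1 hg
    rw [Finset.mem_filter] at hqq
    by_contra hcon
    push Not at hcon
    have hmem0 : (o q)⁻¹ * o q' ∈ trivSubR hβ ω := hcon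
    have hmem : (π (o q))⁻¹ * π (o q') ∈ N := by
      rw [← map_inv, ← map_mul]
      exact Subgroup.mem_map_of_mem π hmem0
    have := QuotientGroup.eq.2 hmem
    rw [ho, ho] at this
    exact hqq.2 this
  let NN : Finset G := (S ×ˢ P).image fun p => (o (π p.1 • p.2))⁻¹ * (p.1 * o p.2)
  let TT : Finset M := ((S ×ˢ P) ×ˢ X₁).image fun p => β (o (π p.1.1 • p.1.2))⁻¹ p.2
  have hTTI : ∀ b ∈ TT, b ∈ I := fun b hb => by
    obtain ⟨⟨⟨g, q⟩, b⟩, hgb, rfl⟩ := Finset.mem_image.1 hb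
    exact hβ _ _ (hX₁I _ (Finset.mem_product.1 hgb).2)
  have hTr : ∀ n : G, ∃ (Fn : Finset M) (εn : ℝ), (∀ x ∈ Fn, x ∈ I) ∧ 0 < εn ∧
      (n ∈ NN → ∀ x : M, ‖x‖ ≤ 1 → (∀ a ∈ Fn, ‖x * a - a * x‖ ≤ εn) →
        ∀ b ∈ TT, ‖(β n x - x) * b‖ ≤ η₂ / 2) := by
    intro n
    by_cases hn : n ∈ NN
    · have hnN : n ∈ trivSubR hβ ω := by
        obtain ⟨⟨g, q⟩, -, rfl⟩ := Finset.mem_image.1 hn
        refine hN _ ?_
        rw [map_mul, map_inv, map_mul]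
        refine QuotientGroup.eq.1 ?_
        rw [ho]
        show π g • q = ((π g * π (o q) : Q) : Q ⧸ N)
        conv_lhs => rw [← ho q]
        rfl
      obtain ⟨Fn, εn, h0, h1, h2⟩ := trivAtR_of_mem hβ hI ω hωle n hnN TT hTTI (η₂ / 2)
        (by (clear * - hε hβ hPne; positivity))
      exact ⟨Fn, εn, h0, h1, fun _ => h2⟩
    · exact ⟨∅, 1, fun x hx => absurd hx (Finset.notMem_empty x), one_pos, fun h => absurd h hn⟩
  choose Fn εn hFnI hεn hTriv using hTr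
  obtain ⟨κ, hκ0, hκ⟩ := exists_pos_le_finset NN εn fun n _ => hεn n
  let Xs : Finset M := ((X₁ ×ˢ P).image fun p => β (o p.2)⁻¹ p.1) ∪ NN.biUnion Fn
  have hXsI : ∀ b ∈ Xs, b ∈ I := fun b hb => by
    rcases Finset.mem_union.1 hb with hb | hb
    · obtain ⟨⟨b, q⟩, hgb, rfl⟩ := Finset.mem_image.1 hb
      exact hβ _ _ (hX₁I _ (Finset.mem_product.1 hgb).1)
    · obtain ⟨n, -, hbn⟩ := Finset.mem_biUnion.1 hb
      exact hFnI n b hbn
  have hXs : ∀ b ∈ X₁, ∀ q ∈ P, β (o q)⁻¹ b ∈ Xs := fun b hb q hq =>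
    Finset.mem_union_left _ (Finset.mem_image.2 ⟨(b, q), Finset.mem_product.2 ⟨hb, hq⟩, rfl⟩)
  set ε₀ : ℝ := min κ (min (ε₁ / m) (η₁ / (16 * B))) with hε₀
  have hε₀0 : 0 < ε₀ := lt_min hκ0 (lt_min (by (clear * - hε hβ hPne; positivity)) (by (clear * - hε hβ hPne; positivity)))
  have hε₀κ : ε₀ ≤ κ := min_le_left _ _
  have hε₀m : m * ε₀ ≤ ε₁ := by
    have h1 : ε₀ ≤ ε₁ / m := (min_le_right _ _).trans (min_le_left _ _)
    rw [le_div_iff₀ hm0] at h1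
    linarith only [h1]
  have hε₀B : 16 * B * ε₀ ≤ η₁ := by
    have h1 : ε₀ ≤ η₁ / (16 * B) := (min_le_right _ _).trans (min_le_right _ _)
    rw [le_div_iff₀ (by (clear * -; positivity))] at h1
    linarith only [h1]
  obtain ⟨Fs, δs, hFsI, hδs, hs⟩ := hSI Xs ε₀ hXsI hε₀0
  obtain ⟨c₁, c₂, hc₁, hc₂, hE₁, hE₂, hE₁₂⟩ :=
    tower_pairR hβ hS hb₀ hb₀1 hO hI ω hωle hu E E' hE (Xs ∪ Fs) (fun y hy => by
      rcases Finset.mem_union.1 hy with hy | hy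
      · exact hXsI y hy
      · exact hFsI y hy) (min δs (η₁ / 32)) (lt_min hδs (by (clear * - hε hβ hPne; positivity)))
  have hδη : min δs (η₁ / 32) ≤ η₁ / 32 := min_le_right _ _
  obtain ⟨F21, U1, δ21, hF21, hU1, hδ21, hs₁⟩ :=
    hs c₁ (AlmCentR.mono hc₁ Finset.subset_union_right (min_le_left _ _))
  obtain ⟨F22, U2, δ22, hF22, hU2, hδ22, hs₂⟩ :=
    hs c₂ (AlmCentR.mono hc₂ Finset.subset_union_right (min_le_left _ _))
  set η : ℝ := min (min δ21 δ22) (min (η₁ / 2) ε₁) with hη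
  have hη0 : 0 < η := lt_min (lt_min hδ21 hδ22) (lt_min (by (clear * - hε hβ hPne; positivity)) hε₁0)
  have hηη₁ : η ≤ η₁ / 2 := (min_le_right _ _).trans (min_le_left _ _)
  have hηε₁ : η ≤ ε₁ := (min_le_right _ _).trans (min_le_right _ _)
  refine ⟨(F21 ∪ F22) ∪ X₁, U1 ∪ U2, P.image o, η, ?_, ?_, hη0, ?_⟩
  · intro x hx
    rcases Finset.mem_union.1 hx with hx | hx
    · rcases Finset.mem_union.1 hx with hx | hx
      · exact hF21 x hx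
      · exact hF22 x hx
    · exact hX₁I x hx
  · intro x hx
    rcases Finset.mem_union.1 hx with hx | hx
    · exact hU1 x hx
    · exact hU2 x hx
  intro e he0 he1 heF heU heS
  obtain ⟨s, hsI, hs2, hsc, hsX⟩ := hs₁ e he0 he1
    (fun b hb => (heF b (Finset.mem_union_left _ (Finset.mem_union_left _ hb))).trans
      ((min_le_left _ _).trans (min_le_left _ _)))
    (fun v hv τ hτ => (heU v (Finset.mem_union_left _ hv) τ hτ).trans
      ((min_le_left _ _).trans (min_le_left _ _)))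
  obtain ⟨t, htI, ht2, htc, htX⟩ := hs₂ e he0 he1
    (fun b hb => (heF b (Finset.mem_union_left _ (Finset.mem_union_right _ hb))).trans
      ((min_le_left _ _).trans (min_le_right _ _)))
    (fun v hv τ hτ => (heU v (Finset.mem_union_right _ hv) τ hτ).trans
      ((min_le_left _ _).trans (min_le_right _ _)))
  have heq : ∀ q ∈ P, ∀ b ∈ X₁, ‖(β (o q) e - e) * b‖ ≤ η₁ / 2 := fun q hq b hb =>
    (heS _ (Finset.mem_image_of_mem _ hq) b (Finset.mem_union_right _ hb)).trans hηη₁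
  -- cross terms
  have cross : ∀ (c c' x y : M), AlmCentR b₀ (Xs ∪ Fs) (min δs (η₁ / 32)) c →
      AlmCentR b₀ (Xs ∪ Fs) (min δs (η₁ / 32)) c' → ‖x‖ ≤ 2 → ‖y‖ ≤ 2 → ‖c * x - x‖ ≤ ε₀ →
      ‖c' * y - y‖ ≤ ε₀ → (∀ a ∈ Xs, ‖y * a - a * y‖ ≤ ε₀) → ∀ q ∈ P, ∀ q' ∈ P,
      (∀ a ∈ Xs ∪ Fs, ‖c * β ((o q)⁻¹ * o q') c' * a‖ ≤ min δs (η₁ / 32)) → ∀ b ∈ X₁,
      ‖star (β (o q) x) * β (o q') y * b‖ ≤ η₁ := by
    intro c c' x y hc hc' hx hy hcx hcy hyX q hq q' hq' hcc b hb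
    have hb1 := hXs b hb q hq
    have hb2 := hXs b hb q' hq'
    have h3 := off_diagR (β := β) x y c c' hx hy hc.1.isSelfAdjoint hc.2.1 ε₀ ε₀ (η₁ / 32) B
      hcx hcy (o q) (o q') b (hX₁B b hb) (hyX _ hb2)
      ((hc'.2.2.2 _ (Finset.mem_union_left _ hb2)).trans hδη)
      ((hcc _ (Finset.mem_union_left _ hb1)).trans hδη)
    exact h3.trans (real_cross hB1 hε₀0 hε₀B)
  -- generic facts
  have gen : ∀ (c x : M), AlmCentR b₀ (Xs ∪ Fs) (min δs (η₁ / 32)) c → ‖x‖ ≤ 2 →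
      ‖c * x - x‖ ≤ ε₀ → (∀ a ∈ Xs, ‖x * a - a * x‖ ≤ ε₀ ∧ ‖(star x * x - e) * a‖ ≤ ε₀) →
      (∀ g ∈ E, ∀ y ∈ Xs ∪ Fs, ‖c * β g c * y‖ ≤ min δs (η₁ / 32)) → ∀ b ∈ X₁,
      ‖wSum β N K P o x * b - b * wSum β N K P o x‖ ≤ ε₁ ∧
      (∀ g ∈ S, ‖(β g (wSum β N K P o x) - wSum β N K P o x) * b‖ ≤ ε₁) ∧
      ‖(star (wSum β N K P o x) * wSum β N K P o x - e) * b‖ ≤ ε₁ := by
    intro c x hc hx hcx hxX hcE b hb
    refine core_avgW (β := β) π N K hK P o S hPK hPSK ε₁ B η₁ η₂ ε₀ hε₁0 hε₁1 hB1 hMη₁ hMη₂ hε₀m hKS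
      e he1 x b (hX₁B b hb) (fun q hq => ?_) (fun q hq q' hq' hne => ?_) (fun g hg q hq => ?_)
      (fun q hq => (hxX _ (hXs b hb q hq)).1)
    · have h3 := diag_boundR (β := β) x e (o q) b ε₀ (η₁ / 2) (hxX _ (hXs b hb q hq)).2
        (heq q hq b hb)
      exact h3.trans (real_diag hB1 hε₀0 hε₀B)
    · have hmem : (o q)⁻¹ * o q' ∈ E := Finset.mem_image.2 ⟨(q, q'), Finset.mem_filter.2
        ⟨Finset.mem_product.2 ⟨hq, hq'⟩, hne⟩, rfl⟩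
      exact cross c c x x hc hc hx hx hcx hcx (fun a ha => (hxX a ha).1) q hq q' hq'
        (hcE _ hmem) b hb
    · set n : G := (o (π g • q))⁻¹ * (g * o q) with hn
      have hnNN : n ∈ NN := Finset.mem_image.2 ⟨(g, q), Finset.mem_product.2 ⟨hg, hq⟩, rfl⟩
      have hbT : β (o (π g • q))⁻¹ b ∈ TT := Finset.mem_image.2 ⟨((g, q), b),
        Finset.mem_product.2 ⟨Finset.mem_product.2 ⟨hg, hq⟩, hb⟩, rfl⟩
      refine triv_boundR x n g (o q) (o (π g • q)) (by rw [hn, mul_inv_cancel_left]) η₂ (εn n)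
        (Fn n) b (fun y hy hya => hTriv n hnNN y hy hya _ hbT) hx fun a ha => ?_
      have haX : a ∈ Xs := Finset.mem_union_right _ (Finset.mem_biUnion.2 ⟨n, hnNN, ha⟩)
      exact (hxX a haX).1.trans (hε₀κ.trans (hκ n hnNN))
  have gs := gen c₁ s hc₁ hs2 hsc (fun a ha => (hsX a ha).2) hE₁
  have gt := gen c₂ t hc₂ ht2 htc (fun a ha => (htX a ha).2) hE₂
  have goff : ∀ b ∈ X₁, ‖star (wSum β N K P o s) * wSum β N K P o t * b‖ ≤ ε₁ := by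
    intro b hb
    have h6 := wSum_off (β := β) N K P o s t b η₁ fun q hq q' hq' =>
      cross c₁ c₂ s t hc₁ hc₂ hs2 ht2 hsc htc (fun a ha => (htX a ha).2.1) q hq q' hq'
        (hE₁₂ _ (Finset.mem_image.2 ⟨(q, q'), Finset.mem_product.2 ⟨hq, hq'⟩, rfl⟩)) b hb
    rw [← hm, hMη₁] at h6
    exact h6.trans (real_off hε₁0 hε₁1 hB1)
  have huX₁ : u ∈ X₁ := Finset.mem_insert_self _ _
  have hXX₁ : ∀ b ∈ X, b ∈ X₁ := fun b hb => Finset.mem_insert_of_mem hb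
  have huS' : ∀ b ∈ X, ∀ g ∈ S, ‖u * β g⁻¹ b - β g⁻¹ b‖ ≤ ρ := fun b hb g hg =>
    (huX _ (Finset.mem_union_right _ (Finset.mem_image.2
      ⟨(g, b), Finset.mem_product.2 ⟨hg, hb⟩, rfl⟩))).1
  exact final_cut X S ε ε₁ ρ (2 * m) (by rw [hε₁]; linarith only [hε'ε]) hε₁0 hε₁1 hρε hRρ u e
    (wSum β N K P o s) (wSum β N K P o t) husa hu1 he1
    (fun b hb => huX b (Finset.mem_union_left _ hb)) huS'
    (fun b hb => (heF b (Finset.mem_union_right _ (hXX₁ b hb))).trans hηε₁)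
    (norm_wSum_le N K P o s hs2) (norm_wSum_le N K P o t ht2) (gs u huX₁).2.2
    (gt u huX₁).2.2 (fun b hb => gs b (hXX₁ b hb)) (fun b hb => gt b (hXX₁ b hb))
    (fun b hb => goff b (hXX₁ b hb))

end si

end Vale.Agent.P095H
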