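import Vale.Agent.P095.H681.Mc
import Vale.Agent.P095.H681.Defs

/-! Centrally trivial automorphisms and the local conclusion. -/

set_option linter.all false

open Filter Topology
open scoped MultiplierAlgebra

namespace Vale.Agent.P095H

open Vale.Agent.P101 Vale.Agent.P101.SeqQuot Vale.Agent.P095 Vale.Agent.P095J Vale.Agent.P095N
open Vale.Agent.P133 Vale.Agent.P095K Vale.Agent.P095R Vale.Agent.P095M

universe u v w x

section triv

variable {A : Type u} [NonUnitalCStarAlgebra A]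

/-- Inner automorphisms are centrally trivial. -/
theorem IsInner.isCentrallyTrivial {φ : A ≃⋆ₐ[ℂ] A} (h : IsInner φ) : IsCentrallyTrivial φ := by
  classical
  obtain ⟨v, hv, hφ⟩ := h
  intro T ε hε
  have hc : ∀ b : A, star v * (b : 𝓜(ℂ, A)) = (((star v).fst b : A) : 𝓜(ℂ, A)) := fun b =>
    mult_mul_coe b (star v)
  refine ⟨T ∪ T.image fun b => (star v).fst b, ε / 2, half_pos hε, fun x hx hxF b hb => ?_⟩
  have h1 := hxF b (Finset.mem_union_left _ hb)
  have h2 := hxF _ (Finset.mem_union_right _ (Finset.mem_image_of_mem (fun b => (star v).fst b) hb))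
  set c : A := (star v).fst b with hcdef
  have hvc : v * (c : 𝓜(ℂ, A)) = (b : 𝓜(ℂ, A)) := by
    rw [hcdef, ← hc b, ← mul_assoc, Unitary.mul_star_self_of_mem hv, one_mul]
  have hm : ∀ p q : A, ((p * q : A) : 𝓜(ℂ, A)) = (p : 𝓜(ℂ, A)) * (q : 𝓜(ℂ, A)) :=
    fun p q => rqc_coe_mul p q
  have hs : ∀ p q : A, ((p - q : A) : 𝓜(ℂ, A)) = (p : 𝓜(ℂ, A)) - (q : 𝓜(ℂ, A)) :=
    fun p q => rqc_coe_sub p q
  have e : (((φ x - x) * b : A) : 𝓜(ℂ, A)) =
      v * ((x * c - c * x : A) : 𝓜(ℂ, A)) - ((x * b - b * x : A) : 𝓜(ℂ, A)) := by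
    rw [hm, hs, hφ, hs, hs, hm, hm, hm, hm, sub_mul, mul_assoc, hc b, ← hcdef, mul_sub,
      ← mul_assoc v (c : 𝓜(ℂ, A)) (x : 𝓜(ℂ, A)), hvc, mul_assoc]
    abel
  rw [← norm_coe_mult, e]
  refine (norm_sub_le _ _).trans ?_
  rw [norm_coe_mult]
  have hv1 : ‖v * ((x * c - c * x : A) : 𝓜(ℂ, A))‖ ≤ ‖x * c - c * x‖ := by
    rw [CStarRing.norm_mem_unitary_mul _ hv, norm_coe_mult]
  linarith

theorem centTrivI_unitAut {φ : A ≃⋆ₐ[ℂ] A} (h : IsCentrallyTrivial φ) :
    CentTrivI (inrIdeal A) (unitAut φ) := by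
  classical
  let _ : PartialOrder (Unitization ℂ A) := CStarAlgebra.spectralOrder _
  have _ : StarOrderedRing (Unitization ℂ A) := CStarAlgebra.spectralOrderedRing _
  intro T ε hT hε
  let T' : Finset A := T.image fun b => b.snd
  have hT' : ∀ b ∈ T, b.snd ∈ T' ∧ b = ((b.snd : A) : Unitization ℂ A) := fun b hb =>
    ⟨Finset.mem_image_of_mem _ hb, by
      obtain ⟨a, rfl⟩ := mem_inrIdeal_iff.1 (hT b hb)
      rw [Unitization.snd_inr]⟩
  obtain ⟨F₀, δ₀, hδ₀, h0⟩ := h T' (ε / 4) (by positivity)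
  let W : Finset (Unitization ℂ A) :=
    Finset.image (fun a : A => (Unitization.inr a : Unitization ℂ A))
      (F₀ ∪ (T' ∪ T'.image φ.symm))
  have hW : ∀ w ∈ W, w ∈ inrIdeal A := fun w hw => by
    obtain ⟨a, -, rfl⟩ := Finset.mem_image.1 hw
    exact inr_mem a
  have hWm : ∀ a ∈ F₀ ∪ (T' ∪ T'.image φ.symm), ((a : A) : Unitization ℂ A) ∈ W := fun a ha =>
    Finset.mem_image_of_mem (fun a : A => (Unitization.inr a : Unitization ℂ A)) ha
  set κ : ℝ := min (δ₀ / 8) (ε / 4) with hκ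
  have hκ0 : 0 < κ := lt_min (by positivity) (by positivity)
  obtain ⟨u, huI, hu0, hu1, hu⟩ := P095C.exists_unitI (inrIdeal A) W hW hκ0
  obtain ⟨u', rfl⟩ := mem_inrIdeal_iff.1 huI
  refine ⟨W, δ₀ / 8, hW, by positivity, fun x hx hxW b hb => ?_⟩
  have hyI : x * (u' : Unitization ℂ A) ∈ inrIdeal A := (inrIdeal A).mul_left' _ _ huI
  obtain ⟨y, hy⟩ := mem_inrIdeal_iff.1 hyI
  have hy1 : ‖y‖ ≤ 1 := by
    rw [← Unitization.norm_inr (𝕜 := ℂ), ← hy]
    refine (norm_mul_le _ _).trans ?_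
    calc ‖x‖ * ‖(u' : Unitization ℂ A)‖ ≤ 1 * 1 := by gcongr
      _ = 1 := one_mul 1
  have hyc : ∀ a ∈ F₀, ‖y * a - a * y‖ ≤ δ₀ := by
    intro a ha
    have ha' := hWm a (Finset.mem_union_left _ ha)
    obtain ⟨g1, g2⟩ := hu _ ha'
    have g3 := hxW _ ha'
    rw [← Unitization.norm_inr (𝕜 := ℂ), Unitization.inr_sub, Unitization.inr_mul,
      Unitization.inr_mul, ← hy]
    generalize ((a : A) : Unitization ℂ A) = a at *
    generalize (u' : Unitization ℂ A) = u at *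
    have e2 : x * u * a - a * (x * u) = x * (u * a - a) + (x * a - a * x) * u -
        x * (a * u - a) := by
      noncomm_ring
    rw [e2]
    have n1 : ‖x * (u * a - a)‖ ≤ κ := (norm_mul_le _ _).trans (by
      calc ‖x‖ * ‖u * a - a‖ ≤ 1 * κ := by gcongr
        _ = κ := one_mul _)
    have n2 : ‖(x * a - a * x) * u‖ ≤ δ₀ / 8 := (norm_mul_le _ _).trans (by
      calc ‖x * a - a * x‖ * ‖u‖ ≤ δ₀ / 8 * 1 := by gcongr
        _ = δ₀ / 8 := mul_one _)
    have n3 : ‖x * (a * u - a)‖ ≤ κ := (norm_mul_le _ _).trans (by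
      calc ‖x‖ * ‖a * u - a‖ ≤ 1 * κ := by gcongr
        _ = κ := one_mul _)
    have m1 := norm_sub_le (x * (u * a - a) + (x * a - a * x) * u) (x * (a * u - a))
    have m2 := norm_add_le (x * (u * a - a)) ((x * a - a * x) * u)
    have : κ ≤ δ₀ / 8 := min_le_left _ _
    linarith
  obtain ⟨hb1, hb2⟩ := hT' b hb
  have h3 := h0 y hy1 hyc b.snd hb1
  have hb3 := (hu _ (hWm _ (Finset.mem_union_right _ (Finset.mem_union_left _ hb1)))).2
  have hb4 := (hu _ (hWm _ (Finset.mem_union_right _ (Finset.mem_union_right _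
    (Finset.mem_image_of_mem _ hb1))))).2
  rw [← Unitization.norm_inr (𝕜 := ℂ), Unitization.inr_mul, Unitization.inr_sub, ← hb2,
    ← unitAut_inr, ← hy, map_mul] at h3
  rw [← hb2] at hb3
  have hn : ∀ z : Unitization ℂ A, ‖unitAut φ z‖ ≤ ‖z‖ := fun z =>
    NonUnitalStarAlgHom.norm_apply_le
      ((unitAut φ : Unitization ℂ A ≃⋆ₐ[ℂ] Unitization ℂ A) : Unitization ℂ A →⋆ₐ[ℂ] Unitization ℂ A) z
  have hb5 : ‖unitAut φ (u' : Unitization ℂ A) * b - b‖ ≤ κ := by
    have e : unitAut φ (u' : Unitization ℂ A) * b - b =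
        unitAut φ ((u' : Unitization ℂ A) * ((φ.symm b.snd : A) : Unitization ℂ A) -
          ((φ.symm b.snd : A) : Unitization ℂ A)) := by
      rw [map_sub, map_mul, unitAut_inr φ (φ.symm b.snd), StarAlgEquiv.apply_symm_apply, ← hb2]
    rw [e]
    exact (hn _).trans hb4
  have e : (unitAut φ x - x) * b = - (unitAut φ x * (unitAut φ (u' : Unitization ℂ A) * b - b)) +
      (unitAut φ x * unitAut φ (u' : Unitization ℂ A) - x * (u' : Unitization ℂ A)) * b +
      x * ((u' : Unitization ℂ A) * b - b) := by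
    noncomm_ring
  rw [e]
  have n1 : ‖- (unitAut φ x * (unitAut φ (u' : Unitization ℂ A) * b - b))‖ ≤ κ := by
    rw [norm_neg]
    refine (norm_mul_le _ _).trans ?_
    calc ‖unitAut φ x‖ * ‖unitAut φ (u' : Unitization ℂ A) * b - b‖ ≤ 1 * κ := by
          gcongr
          exact (hn x).trans hx
      _ = κ := one_mul _
  have n2 : ‖x * ((u' : Unitization ℂ A) * b - b)‖ ≤ κ := by
    refine (norm_mul_le _ _).trans ?_
    calc ‖x‖ * ‖(u' : Unitization ℂ A) * b - b‖ ≤ 1 * κ := by gcongr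
      _ = κ := one_mul _
  have : κ ≤ ε / 4 := min_le_right _ _
  have m1 := norm_add_le (- (unitAut φ x * (unitAut φ (u' : Unitization ℂ A) * b - b)) +
      (unitAut φ x * unitAut φ (u' : Unitization ℂ A) - x * (u' : Unitization ℂ A)) * b)
      (x * ((u' : Unitization ℂ A) * b - b))
  have m2 := norm_add_le (- (unitAut φ x * (unitAut φ (u' : Unitization ℂ A) * b - b)))
      ((unitAut φ x * unitAut φ (u' : Unitization ℂ A) - x * (u' : Unitization ℂ A)) * b)
  linarith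

end triv

end Vale.Agent.P095H
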